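import Vale.Agent.Results.P348.A00_Delta

/-!
# P348: what Haldane's conjecture `Δ₁ > 0` forces on the ground states

With `Delta1 = liminf gap (2 n)` as in `A00_Delta`: `0 ≤ Delta1 ≤ (1 + √2) / 2`, and if
`0 < Delta1` then along the even lengths
* `|⟨ψ, U ψ⟩|² ≥ (1 - ε) ‖ψ‖⁴` eventually, for every `ε > 0`, uniformly in the ground vectors `ψ`
  (`U` the Lieb-Schultz-Mattis twist);
* `∑_α ‖∑_j (-1)^j S^α_j ψ‖² ≤ (16 / Delta1) L ‖ψ‖²` eventually (bounded staggered structure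
  factor).
The per-length inequalities behind these are part of the statement.
-/

namespace Vale.Agent.Results.P348.A000_Limit

open Matrix Vale.Agent.Lib.P348 Vale.Agent.Results.P348.A00_Delta

theorem gap_eventually (h : 0 < Delta1) : ∀ᶠ n : ℕ in Filter.atTop, Delta1 / 2 < gap (2 * n) := by
  have hev : ∀ᶠ n : ℕ in Filter.atTop, 0 ≤ gap (2 * n) := by
    filter_upwards [Filter.eventually_ge_atTop 2] with n hn
    obtain ⟨-, -, -, h1, -⟩ := perL (2 * n) (by omega) (even_two_mul n)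
    exact h1.le
  have hbelow : Filter.IsBoundedUnder (· ≥ ·) Filter.atTop (fun n : ℕ => gap (2 * n)) :=
    ⟨0, by simpa using hev⟩
  exact Filter.eventually_lt_of_lt_liminf (by unfold Delta1 at h ⊢; linarith) hbelow

theorem twist_limit (h : 0 < Delta1) (ε : ℝ) (hε : 0 < ε) :
    ∀ᶠ n : ℕ in Filter.atTop, ∀ ψ : Cfg (2 * n) → ℂ,
      ham (2 * n) *ᵥ ψ = (E0 (2 * n) : ℂ) • ψ →
      (1 - ε) * (star ψ ⬝ᵥ ψ).re ^ 2 ≤ ‖star ψ ⬝ᵥ (tw (lsm (2 * n)) *ᵥ ψ)‖ ^ 2 := by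
  obtain ⟨n0, hn0⟩ := exists_nat_gt (8 * Real.pi ^ 2 / (ε * (Delta1 / 2)))
  filter_upwards [gap_eventually h, Filter.eventually_ge_atTop (max 2 n0)] with n hg hn ψ hψ
  have hn2 : 2 ≤ n := le_trans (le_max_left _ _) hn
  have hnn : n0 ≤ n := le_trans (le_max_right _ _) hn
  obtain ⟨-, -, -, -, -, -, ht⟩ := perL (2 * n) (by omega) (even_two_mul n)
  have ht' := ht ψ hψ
  set N2 := (star ψ ⬝ᵥ ψ).re ^ 2 with hN2
  set Z := ‖star ψ ⬝ᵥ (tw (lsm (2 * n)) *ᵥ ψ)‖ ^ 2 with hZ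
  have hN2nn : 0 ≤ N2 := by positivity
  by_cases hneg : N2 - Z ≤ 0
  · nlinarith
  push Not at hneg
  have hc : 0 < ε * (Delta1 / 2) := by positivity
  have hLpos : (0 : ℝ) < ((2 * n : ℕ) : ℝ) := by exact_mod_cast (by omega : 0 < 2 * n)
  have hbig : 8 * Real.pi ^ 2 / ((2 * n : ℕ) : ℝ) ≤ ε * (Delta1 / 2) := by
    rw [div_le_iff₀ hLpos]
    have h1 : 8 * Real.pi ^ 2 < (n0 : ℝ) * (ε * (Delta1 / 2)) := by
      rwa [div_lt_iff₀ hc] at hn0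
    have h2 : (n0 : ℝ) ≤ ((2 * n : ℕ) : ℝ) := by exact_mod_cast (by omega : n0 ≤ 2 * n)
    nlinarith
  have h3 : Delta1 / 2 * (N2 - Z) ≤ gap (2 * n) * (N2 - Z) :=
    mul_le_mul_of_nonneg_right hg.le hneg.le
  have h4 : 8 * Real.pi ^ 2 / ((2 * n : ℕ) : ℝ) * N2 ≤ ε * (Delta1 / 2) * N2 :=
    mul_le_mul_of_nonneg_right hbig hN2nn
  have h5 : Delta1 / 2 * (N2 - Z) ≤ Delta1 / 2 * (ε * N2) := by nlinarith
  have h6 : N2 - Z ≤ ε * N2 := le_of_mul_le_mul_left h5 (by positivity)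
  linarith

theorem stagger_limit (h : 0 < Delta1) :
    ∀ᶠ n : ℕ in Filter.atTop, ∀ ψ : Cfg (2 * n) → ℂ,
      ham (2 * n) *ᵥ ψ = (E0 (2 * n) : ℂ) • ψ →
      ∑ α : Fin 3,
          (star ((∑ j : Fin (2 * n), (((-1 : ℝ) ^ j.val : ℝ) : ℂ) • site j (S α)) *ᵥ ψ) ⬝ᵥ
            ((∑ j : Fin (2 * n), (((-1 : ℝ) ^ j.val : ℝ) : ℂ) • site j (S α)) *ᵥ ψ)).re
        ≤ 16 / Delta1 * ((2 * n : ℕ) : ℝ) * (star ψ ⬝ᵥ ψ).re := by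
  filter_upwards [gap_eventually h, Filter.eventually_ge_atTop 2] with n hg hn ψ hψ
  obtain ⟨e0, e1, h0, h1, -, -, -, -, -, -, hs⟩ :=
    A0_Twist.result.2.2.2 (2 * n) (by omega) (even_two_mul n)
  obtain rfl : e0 = E0 (2 * n) := h0.csInf_eq.symm
  obtain rfl : e1 = E1 (2 * n) := h1.csInf_eq.symm
  have hst := (hs ψ hψ).2.2
  set SF := ∑ α : Fin 3,
      (star ((∑ j : Fin (2 * n), (((-1 : ℝ) ^ j.val : ℝ) : ℂ) • site j (S α)) *ᵥ ψ) ⬝ᵥ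
        ((∑ j : Fin (2 * n), (((-1 : ℝ) ^ j.val : ℝ) : ℂ) • site j (S α)) *ᵥ ψ)).re with hSF
  have hg' : Delta1 / 2 < E1 (2 * n) - E0 (2 * n) := hg
  by_cases hneg : SF ≤ 0
  · have hN : 0 ≤ (star ψ ⬝ᵥ ψ).re := by
      by_cases hz : ψ = 0
      · rw [hz]; simp
      · exact (nrm_pos ψ hz).le
    have : 0 ≤ 16 / Delta1 * ((2 * n : ℕ) : ℝ) * (star ψ ⬝ᵥ ψ).re := by positivity
    linarith
  push Not at hneg
  have h3 : Delta1 / 2 * SF ≤ (E1 (2 * n) - E0 (2 * n)) * SF :=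
    mul_le_mul_of_nonneg_right hg'.le hneg.le
  have h4 : Delta1 / 2 * SF ≤ 8 * ((2 * n : ℕ) : ℝ) * (star ψ ⬝ᵥ ψ).re := le_trans h3 hst
  have h5 : 16 / Delta1 * ((2 * n : ℕ) : ℝ) * (star ψ ⬝ᵥ ψ).re
      = (8 * ((2 * n : ℕ) : ℝ) * (star ψ ⬝ᵥ ψ).re) / (Delta1 / 2) := by
    field_simp
    ring
  rw [h5, le_div_iff₀ (by positivity)]
  linarith

/-- The spin matrices are certified; for even `L ≥ 4` the infima defining `E0 L`, `E1 L` are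
attained, `E0 L` is simple, `0 < γ_L ≤ min (-E0 / L) ((1 + √2) / 2)` and the twist bound holds;
`0 ≤ Δ₁ ≤ (1 + √2) / 2`; and if `0 < Δ₁` then the twist overlap of the ground states tends to one in
modulus and their staggered structure factor stays bounded by `16 / Δ₁`. -/
theorem result :
    (Sxᴴ = Sx ∧ Syᴴ = Sy ∧ Szᴴ = Sz) ∧
    (Sx * Sy - Sy * Sx = Complex.I • Sz ∧ Sy * Sz - Sz * Sy = Complex.I • Sx ∧
      Sz * Sx - Sx * Sz = Complex.I • Sy) ∧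
    Sx * Sx + Sy * Sy + Sz * Sz = (2 : ℂ) • (1 : Matrix (Fin 3) (Fin 3) ℂ) ∧
    (∀ L : ℕ, 4 ≤ L → Even L →
      IsLeast {x | IsEig (ham L) x} (E0 L) ∧
      IsLeast {x | IsEig (ham L) x ∧ x ≠ E0 L} (E1 L) ∧
      (∀ v w : Cfg L → ℂ, v ≠ 0 → ham L *ᵥ v = (E0 L : ℂ) • v → ham L *ᵥ w = (E0 L : ℂ) • w →
        ∃ c : ℂ, w = c • v) ∧
      0 < gap L ∧ gap L ≤ -E0 L / L ∧ gap L ≤ (1 + Real.sqrt 2) / 2 ∧
      ∀ ψ : Cfg L → ℂ, ham L *ᵥ ψ = (E0 L : ℂ) • ψ →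
        gap L * ((star ψ ⬝ᵥ ψ).re ^ 2 - ‖star ψ ⬝ᵥ (tw (lsm L) *ᵥ ψ)‖ ^ 2)
          ≤ 8 * Real.pi ^ 2 / L * (star ψ ⬝ᵥ ψ).re ^ 2) ∧
    0 ≤ Delta1 ∧ Delta1 ≤ (1 + Real.sqrt 2) / 2 ∧
    (0 < Delta1 →
      (∀ ε : ℝ, 0 < ε → ∀ᶠ n : ℕ in Filter.atTop, ∀ ψ : Cfg (2 * n) → ℂ,
        ham (2 * n) *ᵥ ψ = (E0 (2 * n) : ℂ) • ψ →
        (1 - ε) * (star ψ ⬝ᵥ ψ).re ^ 2 ≤ ‖star ψ ⬝ᵥ (tw (lsm (2 * n)) *ᵥ ψ)‖ ^ 2) ∧
      ∀ᶠ n : ℕ in Filter.atTop, ∀ ψ : Cfg (2 * n) → ℂ,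
        ham (2 * n) *ᵥ ψ = (E0 (2 * n) : ℂ) • ψ →
        ∑ α : Fin 3,
            (star ((∑ j : Fin (2 * n), (((-1 : ℝ) ^ j.val : ℝ) : ℂ) • site j (S α)) *ᵥ ψ) ⬝ᵥ
              ((∑ j : Fin (2 * n), (((-1 : ℝ) ^ j.val : ℝ) : ℂ) • site j (S α)) *ᵥ ψ)).re
          ≤ 16 / Delta1 * ((2 * n : ℕ) : ℝ) * (star ψ ⬝ᵥ ψ).re) :=
  ⟨A0_Twist.result.1, A0_Twist.result.2.1, A0_Twist.result.2.2.1, perL, delta_bounds.1,
    delta_bounds.2, fun h => ⟨twist_limit h, stagger_limit h⟩⟩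

end Vale.Agent.Results.P348.A000_Limit
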