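import Vale.Agent.Results.P348.A0_Twist

/-!
# P348: the quantity `Δ₁ = liminf γ_L` itself

`E0 L`, `E1 L` are defined as infima of the sets of eigenvalues, `gap L = E1 L - E0 L` and
`Delta1 = liminf_{n → ∞} gap (2 n)`.  For even `L ≥ 4` the infima are attained, `E0 L` is simple,
`0 < gap L ≤ (1 + √2) / 2`, hence `0 ≤ Delta1 ≤ (1 + √2) / 2`; and for every ground vector the
Lieb-Schultz-Mattis twist `U` satisfies `gap L (‖ψ‖⁴ - |⟨ψ, U ψ⟩|²) ≤ (8 π² / L) ‖ψ‖⁴`.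
-/

namespace Vale.Agent.Results.P348.A00_Delta

open Matrix Vale.Agent.Lib.P348

/-- the least eigenvalue of `H_L` -/
noncomputable def E0 (L : ℕ) : ℝ := sInf {x | IsEig (ham L) x}

/-- the next distinct eigenvalue of `H_L` -/
noncomputable def E1 (L : ℕ) : ℝ := sInf {x | IsEig (ham L) x ∧ x ≠ E0 L}

/-- the gap `γ_L` -/
noncomputable def gap (L : ℕ) : ℝ := E1 L - E0 L

/-- `Δ₁`: the lower limit of the gap along the even lengths -/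
noncomputable def Delta1 : ℝ := Filter.liminf (fun n : ℕ => gap (2 * n)) Filter.atTop

theorem perL (L : ℕ) (hL : 4 ≤ L) (hev : Even L) :
    IsLeast {x | IsEig (ham L) x} (E0 L) ∧
      IsLeast {x | IsEig (ham L) x ∧ x ≠ E0 L} (E1 L) ∧
      (∀ v w : Cfg L → ℂ, v ≠ 0 → ham L *ᵥ v = (E0 L : ℂ) • v → ham L *ᵥ w = (E0 L : ℂ) • w →
        ∃ c : ℂ, w = c • v) ∧
      0 < gap L ∧ gap L ≤ -E0 L / L ∧ gap L ≤ (1 + Real.sqrt 2) / 2 ∧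
      ∀ ψ : Cfg L → ℂ, ham L *ᵥ ψ = (E0 L : ℂ) • ψ →
        gap L * ((star ψ ⬝ᵥ ψ).re ^ 2 - ‖star ψ ⬝ᵥ (tw (lsm L) *ᵥ ψ)‖ ^ 2)
          ≤ 8 * Real.pi ^ 2 / L * (star ψ ⬝ᵥ ψ).re ^ 2 := by
  obtain ⟨e0, e1, h0, h1, hu, -, -, hlt, hm, hb, hs⟩ := A0_Twist.result.2.2.2 L hL hev
  obtain rfl : e0 = E0 L := h0.csInf_eq.symm
  obtain rfl : e1 = E1 L := h1.csInf_eq.symm
  exact ⟨h0, h1, hu, sub_pos.2 hlt, hm, hb, fun ψ hψ => (hs ψ hψ).1⟩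

theorem delta_bounds : 0 ≤ Delta1 ∧ Delta1 ≤ (1 + Real.sqrt 2) / 2 := by
  have hev : ∀ᶠ n : ℕ in Filter.atTop, 0 ≤ gap (2 * n) ∧ gap (2 * n) ≤ (1 + Real.sqrt 2) / 2 := by
    filter_upwards [Filter.eventually_ge_atTop 2] with n hn
    obtain ⟨-, -, -, h1, -, h2, -⟩ := perL (2 * n) (by omega) (even_two_mul n)
    exact ⟨h1.le, h2⟩
  have hbelow : Filter.IsBoundedUnder (· ≥ ·) Filter.atTop (fun n : ℕ => gap (2 * n)) :=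
    ⟨0, by simpa using hev.mono fun n h => h.1⟩
  have habove : Filter.IsBoundedUnder (· ≤ ·) Filter.atTop (fun n : ℕ => gap (2 * n)) :=
    ⟨(1 + Real.sqrt 2) / 2, by simpa using hev.mono fun n h => h.2⟩
  constructor
  · exact Filter.le_liminf_of_le habove.isCoboundedUnder_ge (hev.mono fun n h => h.1)
  · exact Filter.liminf_le_of_frequently_le (hev.mono fun n h => h.2).frequently hbelow

/-- The spin matrices are certified; for even `L ≥ 4` the infima defining `E0 L`, `E1 L` are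
attained, `E0 L` is simple, `0 < γ_L ≤ min (-E0 / L) ((1 + √2) / 2)` and the twist bound holds;
and `0 ≤ Δ₁ ≤ (1 + √2) / 2`. -/
theorem result :
    (Sxᴴ = Sx ∧ Syᴴ = Sy ∧ Szᴴ = Sz) ∧
    (Sx * Sy - Sy * Sx = Complex.I • Sz ∧ Sy * Sz - Sz * Sy = Complex.I • Sx ∧
      Sz * Sx - Sx * Sz = Complex.I • Sy) ∧
    Sx * Sx + Sy * Sy + Sz * Sz = (2 : ℂ) • (1 : Matrix (Fin 3) (Fin 3) ℂ) ∧
    (∀ L : ℕ, 4 ≤ L → Even L →
      IsLeast {x | IsEig (ham L) x} (E0 L) ∧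
      IsLeast {x | IsEig (ham L) x ∧ x ≠ E0 L} (E1 L) ∧
      (∀ v w : Cfg L → ℂ, v ≠ 0 → ham L *ᵥ v = (E0 L : ℂ) • v → ham L *ᵥ w = (E0 L : ℂ) • w →
        ∃ c : ℂ, w = c • v) ∧
      0 < gap L ∧ gap L ≤ -E0 L / L ∧ gap L ≤ (1 + Real.sqrt 2) / 2 ∧
      ∀ ψ : Cfg L → ℂ, ham L *ᵥ ψ = (E0 L : ℂ) • ψ →
        gap L * ((star ψ ⬝ᵥ ψ).re ^ 2 - ‖star ψ ⬝ᵥ (tw (lsm L) *ᵥ ψ)‖ ^ 2)
          ≤ 8 * Real.pi ^ 2 / L * (star ψ ⬝ᵥ ψ).re ^ 2) ∧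
    0 ≤ Delta1 ∧ Delta1 ≤ (1 + Real.sqrt 2) / 2 :=
  ⟨A0_Twist.result.1, A0_Twist.result.2.1, A0_Twist.result.2.2.1, perL, delta_bounds⟩

end Vale.Agent.Results.P348.A00_Delta
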