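import Vale.Agent.Results.P348.A_All
import Vale.Agent.Lib.P348.Tw6
import Vale.Agent.Lib.P348.Tw7
import Vale.Agent.Lib.P348.Tw8
import Vale.Agent.Lib.P348.Tw9

/-!
# P348: the Lieb-Schultz-Mattis twist and the gap of the spin-one Heisenberg ring

Let `U = exp (2 π i / L ∑_j j S^z_j)` be the Lieb-Schultz-Mattis twist.  For every even `L ≥ 4` and
every ground vector `ψ` of `H_L`,
`(E1 - E0) (‖ψ‖⁴ - |⟨ψ, U ψ⟩|²) ≤ (8 π² / L) ‖ψ‖⁴`.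
So a uniform gap forces `|⟨ψ, U ψ⟩| → 1` for the normalised ground states, at rate `1 / L`.
The statement also contains everything of the hand-in `A_All` for the same `E0, E1`.

Proof: `Uᴴ H U + U H Uᴴ = 2 H - 2 (1 - cos (2 π / L)) ∑_k (S^x_k S^x_{k+1} + S^y_k S^y_{k+1})`, both
twisted states have energy at least `E0`, so `⟨U ψ, (H - E0) U ψ⟩ ≤ 4 (1 - cos (2 π / L)) L ‖ψ‖²`;
the ground state is nondegenerate, so the part of `U ψ` orthogonal to `ψ` costs at least the gap.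
-/

namespace Vale.Agent.Results.P348.A0_Twist

open Matrix Vale.Agent.Lib.P348

theorem twist_energy (L : ℕ) (hL : 2 ≤ L) (E0 : ℝ) (hlow : LowerBd (ham L) E0)
    (ψ : Cfg L → ℂ) (hψ : ham L *ᵥ ψ = (E0 : ℂ) • ψ) :
    (star (tw (lsm L) *ᵥ ψ) ⬝ᵥ (ham L *ᵥ (tw (lsm L) *ᵥ ψ))).re
        - E0 * (star (tw (lsm L) *ᵥ ψ) ⬝ᵥ (tw (lsm L) *ᵥ ψ)).re
      ≤ 8 * Real.pi ^ 2 / L * (star ψ ⬝ᵥ ψ).re := by
  have hLpos : (0 : ℝ) < L := by exact_mod_cast (by omega : 0 < L)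
  set U := tw (lsm L) with hU
  set U' := tw (fun j => -lsm L j) with hU'
  set N := (star ψ ⬝ᵥ ψ).re with hN
  have hN0 : 0 ≤ N := by
    by_cases h0 : ψ = 0
    · rw [hN, h0]; simp
    · exact (nrm_pos ψ h0).le
  have n1 : star (U *ᵥ ψ) ⬝ᵥ (U *ᵥ ψ) = star ψ ⬝ᵥ ψ := nrm_conj U (tw_unitary _).1 ψ
  have n2 : star (U' *ᵥ ψ) ⬝ᵥ (U' *ᵥ ψ) = star ψ ⬝ᵥ ψ := nrm_conj U' (tw_unitary _).1 ψ
  have e1 := expect_conj (ham L) U ψ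
  have e2 := expect_conj (ham L) U' ψ
  have hsum : star ψ ⬝ᵥ ((Uᴴ * ham L * U) *ᵥ ψ) + star ψ ⬝ᵥ ((U'ᴴ * ham L * U') *ᵥ ψ)
      = (2 : ℂ) * ((E0 : ℂ) * (star ψ ⬝ᵥ ψ))
        - ((2 * (1 - Real.cos (2 * Real.pi / L)) : ℝ) : ℂ) * (star ψ ⬝ᵥ (hxy L *ᵥ ψ)) := by
    rw [← dotProduct_add, ← Matrix.add_mulVec, ham_twist_sum hL, Matrix.sub_mulVec,
      Matrix.smul_mulVec, Matrix.smul_mulVec, dotProduct_sub, dotProduct_smul, dotProduct_smul,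
      hψ, dotProduct_smul, smul_eq_mul, smul_eq_mul, smul_eq_mul]
  have hre := congrArg Complex.re hsum
  rw [Complex.add_re, Complex.sub_re, Complex.re_ofReal_mul, ← e1, ← e2] at hre
  have h2 : ((2 : ℂ) * ((E0 : ℂ) * (star ψ ⬝ᵥ ψ))).re = 2 * (E0 * N) := by
    have : (2 : ℂ) * ((E0 : ℂ) * (star ψ ⬝ᵥ ψ)) = ((2 * E0 : ℝ) : ℂ) * (star ψ ⬝ᵥ ψ) := by
      push_cast; ring
    rw [this, Complex.re_ofReal_mul]; ring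
  rw [h2] at hre
  have hlow2 := hlow (U' *ᵥ ψ)
  rw [n2] at hlow2
  rw [n1]
  have hx := hxy_lower ψ
  have hcos : 1 - Real.cos (2 * Real.pi / L) ≤ (2 * Real.pi / L) ^ 2 / 2 := by
    have := Real.one_sub_sq_div_two_le_cos (x := 2 * Real.pi / L)
    linarith
  have hcos0 : 0 ≤ 1 - Real.cos (2 * Real.pi / L) := by
    have := Real.cos_le_one (2 * Real.pi / L)
    linarith
  have hx0 : 0 ≤ 2 * (L : ℝ) * N := by positivity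
  have step1 : (star (U *ᵥ ψ) ⬝ᵥ (ham L *ᵥ (U *ᵥ ψ))).re - E0 * N
      ≤ 2 * (1 - Real.cos (2 * Real.pi / L)) * (2 * L * N) := by
    have : 2 * (1 - Real.cos (2 * Real.pi / L)) * (-(star ψ ⬝ᵥ (hxy L *ᵥ ψ)).re)
        ≤ 2 * (1 - Real.cos (2 * Real.pi / L)) * (2 * L * N) :=
      mul_le_mul_of_nonneg_left hx (by linarith)
    nlinarith
  have step2 : 2 * (1 - Real.cos (2 * Real.pi / L)) * (2 * L * N)
      ≤ 2 * ((2 * Real.pi / L) ^ 2 / 2) * (2 * L * N) :=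
    mul_le_mul_of_nonneg_right (by linarith) hx0
  have step3 : 2 * ((2 * Real.pi / L) ^ 2 / 2) * (2 * L * N) = 8 * Real.pi ^ 2 / L * N := by
    field_simp
    ring
  linarith

theorem main (L : ℕ) (hL : 4 ≤ L) (E0 E1 : ℝ)
    (h0 : IsLeast {x | IsEig (ham L) x} E0)
    (h1 : IsLeast {x | IsEig (ham L) x ∧ x ≠ E0} E1)
    (hu : ∀ v w : Cfg L → ℂ, v ≠ 0 → ham L *ᵥ v = (E0 : ℂ) • v → ham L *ᵥ w = (E0 : ℂ) • w →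
          ∃ c : ℂ, w = c • v)
    (ψ : Cfg L → ℂ) (hψ : ham L *ᵥ ψ = (E0 : ℂ) • ψ) :
    (E1 - E0) * ((star ψ ⬝ᵥ ψ).re ^ 2 - ‖star ψ ⬝ᵥ (tw (lsm L) *ᵥ ψ)‖ ^ 2)
      ≤ 8 * Real.pi ^ 2 / L * (star ψ ⬝ᵥ ψ).re ^ 2 := by
  have hL2 : 2 ≤ L := by omega
  have hH := ham_herm hL2
  obtain ⟨E0', hE0', hlow, -, -⟩ := spectral_pack (ham L) hH
  obtain rfl : E0' = E0 := hE0'.unique h0
  by_cases hz : ψ = 0
  · subst hz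
    simp
  have hN0 : 0 < (star ψ ⬝ᵥ ψ).re := nrm_pos ψ hz
  have hg := gap_overlap (ham L) hH E0' E1 h1 ψ hψ (fun w hw => hu ψ w hz hψ hw)
    (tw (lsm L) *ᵥ ψ)
  have ht := twist_energy L hL2 E0' hlow ψ hψ
  have n1 : star (tw (lsm L) *ᵥ ψ) ⬝ᵥ (tw (lsm L) *ᵥ ψ) = star ψ ⬝ᵥ ψ :=
    nrm_conj _ (tw_unitary _).1 ψ
  rw [n1] at hg
  rw [n1] at ht
  have h3 := mul_le_mul_of_nonneg_left ht hN0.le
  calc (E1 - E0') * ((star ψ ⬝ᵥ ψ).re ^ 2 - ‖star ψ ⬝ᵥ (tw (lsm L) *ᵥ ψ)‖ ^ 2)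
      = (E1 - E0') * ((star ψ ⬝ᵥ ψ).re * (star ψ ⬝ᵥ ψ).re
          - ‖star ψ ⬝ᵥ (tw (lsm L) *ᵥ ψ)‖ ^ 2) := by ring
    _ ≤ _ := hg
    _ ≤ _ := h3
    _ = _ := by ring

/-- The matrices `Sx, Sy, Sz` are Hermitian, satisfy the `su(2)` relations and have Casimir `2`;
and for every even `L ≥ 4` the least eigenvalue `E0` of `H_L` is simple, lies in `[-2L, -L]`,
the gap to the next eigenvalue `E1` satisfies `0 < E1 - E0 ≤ min (-E0 / L) ((1 + √2) / 2)`,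
the gap times the weighted structure factor of the ground state is bounded by the weighted bond
energies, and the gap times `‖ψ‖⁴ - |⟨ψ, U ψ⟩|²` is at most `(8 π² / L) ‖ψ‖⁴` for the
Lieb-Schultz-Mattis twist `U`. -/
theorem result :
    (Sxᴴ = Sx ∧ Syᴴ = Sy ∧ Szᴴ = Sz) ∧
    (Sx * Sy - Sy * Sx = Complex.I • Sz ∧ Sy * Sz - Sz * Sy = Complex.I • Sx ∧
      Sz * Sx - Sx * Sz = Complex.I • Sy) ∧
    Sx * Sx + Sy * Sy + Sz * Sz = (2 : ℂ) • (1 : Matrix (Fin 3) (Fin 3) ℂ) ∧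
    ∀ L : ℕ, 4 ≤ L → Even L →
      ∃ E0 E1 : ℝ, IsLeast {x | IsEig (ham L) x} E0 ∧
        IsLeast {x | IsEig (ham L) x ∧ x ≠ E0} E1 ∧
        (∀ v w : Cfg L → ℂ, v ≠ 0 → ham L *ᵥ v = (E0 : ℂ) • v → ham L *ᵥ w = (E0 : ℂ) • w →
          ∃ c : ℂ, w = c • v) ∧
        -2 * (L : ℝ) ≤ E0 ∧ E0 ≤ -(L : ℝ) ∧ E0 < E1 ∧ E1 - E0 ≤ -E0 / L ∧
        E1 - E0 ≤ (1 + Real.sqrt 2) / 2 ∧
        ∀ ψ : Cfg L → ℂ, ham L *ᵥ ψ = (E0 : ℂ) • ψ →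
          (E1 - E0) * ((star ψ ⬝ᵥ ψ).re ^ 2 - ‖star ψ ⬝ᵥ (tw (lsm L) *ᵥ ψ)‖ ^ 2)
            ≤ 8 * Real.pi ^ 2 / L * (star ψ ⬝ᵥ ψ).re ^ 2 ∧
          (∀ w : Fin L → ℝ,
            (E1 - E0) * ∑ α : Fin 3,
                (star ((∑ j : Fin L, (w j : ℂ) • site j (S α)) *ᵥ ψ) ⬝ᵥ
                  ((∑ j : Fin L, (w j : ℂ) • site j (S α)) *ᵥ ψ)).re
              ≤ ∑ k : Fin L,
                  (w k - w (nxt k)) ^ 2 * (-(star ψ ⬝ᵥ (bond k (nxt k) *ᵥ ψ)).re)) ∧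
          (E1 - E0) * ∑ α : Fin 3,
              (star ((∑ j : Fin L, (((-1 : ℝ) ^ j.val : ℝ) : ℂ) • site j (S α)) *ᵥ ψ) ⬝ᵥ
                ((∑ j : Fin L, (((-1 : ℝ) ^ j.val : ℝ) : ℂ) • site j (S α)) *ᵥ ψ)).re
            ≤ 8 * L * (star ψ ⬝ᵥ ψ).re := by
  obtain ⟨hh, hc, hcas, h2⟩ := A_All.result
  refine ⟨hh, hc, hcas, fun L hL hev => ?_⟩
  obtain ⟨E0, E1, h0, h1, hu, hlow, hup, hlt, hm, hb, hs⟩ := h2 L hL hev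
  exact ⟨E0, E1, h0, h1, hu, hlow, hup, hlt, hm, hb, fun ψ hψ =>
    ⟨main L hL E0 E1 h0 h1 hu ψ hψ, hs ψ hψ⟩⟩

end Vale.Agent.Results.P348.A0_Twist
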