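import Vale.Agent.Lib.P348.Unique
import Vale.Agent.Lib.P348.FirstMoment
import Vale.Agent.Lib.P348.Casimir
import Vale.Agent.Lib.P348.Pack
import Vale.Agent.Lib.P348.Ground
import Vale.Agent.Lib.P348.Gen1
import Vale.Agent.Lib.P348.Gen2

/-!
# P348: the gap of the spin-one Heisenberg ring against ground-state correlations

For every even `L ≥ 4`, every ground vector `ψ` of `H_L` and all real weights `w_j`,
`(E1 - E0) ∑_α ‖∑_j w_j S^α_j ψ‖² ≤ ∑_k (w_k - w_{k+1})² ⟨ψ, (-S_k·S_{k+1}) ψ⟩`.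
For the staggered weights `w_j = (-1)^j` the right side is `-4 E0 ‖ψ‖² ≤ 8 L ‖ψ‖²`: the gap times
the staggered structure factor of the ground state is at most `8`.

Proof: `ψ` is a total singlet and the ground state is nondegenerate (`Lib/P348/Unique.lean`), so
`A ψ`, `A = ∑_j w_j S^α_j`, is orthogonal to the ground vectors, whence
`(E1 - E0) ‖A ψ‖² ≤ ⟨A ψ, (H - E0) A ψ⟩ = (1/2) ⟨ψ, [A, [H, A]] ψ⟩`; the double commutators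
summed over `α` equal `-2 ∑_k (w_k - w_{k+1})² S_k·S_{k+1}`.
-/

namespace Vale.Agent.Results.P348.StructureFactorBound

open Matrix Vale.Agent.Lib.P348

theorem main (L : ℕ) (hL : 4 ≤ L) (hev : Even L) :
    ∃ E0 E1 : ℝ, IsLeast {x | IsEig (ham L) x} E0 ∧
      IsLeast {x | IsEig (ham L) x ∧ x ≠ E0} E1 ∧ E0 < E1 ∧
      ∀ ψ : Cfg L → ℂ, ham L *ᵥ ψ = (E0 : ℂ) • ψ →
        (∀ w : Fin L → ℝ,
          (E1 - E0) * ∑ α : Fin 3,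
              (star ((∑ j : Fin L, (w j : ℂ) • site j (S α)) *ᵥ ψ) ⬝ᵥ
                ((∑ j : Fin L, (w j : ℂ) • site j (S α)) *ᵥ ψ)).re
            ≤ ∑ k : Fin L, (w k - w (nxt k)) ^ 2 * (-(star ψ ⬝ᵥ (bond k (nxt k) *ᵥ ψ)).re)) ∧
        (E1 - E0) * ∑ α : Fin 3,
            (star ((∑ j : Fin L, (((-1 : ℝ) ^ j.val : ℝ) : ℂ) • site j (S α)) *ᵥ ψ) ⬝ᵥ
              ((∑ j : Fin L, (((-1 : ℝ) ^ j.val : ℝ) : ℂ) • site j (S α)) *ᵥ ψ)).re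
          ≤ 8 * L * (star ψ ⬝ᵥ ψ).re := by
  have hL2 : 2 ≤ L := by omega
  have hH := ham_herm hL2
  obtain ⟨E0, hE0, hlow, hex, -⟩ := spectral_pack (ham L) hH
  -- general inequality, for any `E1`
  have hgen : ∀ E1 : ℝ, IsLeast {x | IsEig (ham L) x ∧ x ≠ E0} E1 →
      ∀ ψ : Cfg L → ℂ, ham L *ᵥ ψ = (E0 : ℂ) • ψ → ∀ w : Fin L → ℝ,
        (E1 - E0) * ∑ α : Fin 3, (star (AW w α *ᵥ ψ) ⬝ᵥ (AW w α *ᵥ ψ)).re
          ≤ ∑ k : Fin L, (w k - w (nxt k)) ^ 2 * (-(star ψ ⬝ᵥ (bond k (nxt k) *ᵥ ψ)).re) := by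
    intro E1 hE1 ψ hψ w
    have hterm : ∀ α : Fin 3, (E1 - E0) * (star (AW w α *ᵥ ψ) ⬝ᵥ (AW w α *ᵥ ψ)).re
        ≤ (star (AW w α *ᵥ ψ) ⬝ᵥ (ham L *ᵥ (AW w α *ᵥ ψ))).re
          - E0 * (star (AW w α *ᵥ ψ) ⬝ᵥ (AW w α *ᵥ ψ)).re := fun α =>
      gap_first_moment (ham L) hH E0 E1 hE1 (AW w α *ᵥ ψ)
        (fun v hv => AW_ortho hL2 hev E0 hlow ψ v hψ hv w α)
    have h1 : ∀ α : Fin 3, (star ψ ⬝ᵥ (dc (ham L) (AW w α) *ᵥ ψ)).re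
        = 2 * ((star (AW w α *ᵥ ψ) ⬝ᵥ (ham L *ᵥ (AW w α *ᵥ ψ))).re
          - E0 * (star (AW w α *ᵥ ψ) ⬝ᵥ (AW w α *ᵥ ψ)).re) := fun α =>
      double_comm_expect (ham L) (AW w α) hH (AW_herm w α) E0 ψ hψ
    have h2 : (star ψ ⬝ᵥ ((∑ α : Fin 3, dc (ham L) (AW w α)) *ᵥ ψ)).re
        = ∑ α : Fin 3, 2 * ((star (AW w α *ᵥ ψ) ⬝ᵥ (ham L *ᵥ (AW w α *ᵥ ψ))).re
          - E0 * (star (AW w α *ᵥ ψ) ⬝ᵥ (AW w α *ᵥ ψ)).re) := by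
      rw [Matrix.sum_mulVec, dotProduct_sum, Complex.re_sum]
      exact Finset.sum_congr rfl fun α _ => h1 α
    have h3 : (star ψ ⬝ᵥ ((∑ α : Fin 3, dc (ham L) (AW w α)) *ᵥ ψ)).re
        = 2 * ∑ k : Fin L, (w k - w (nxt k)) ^ 2 * (-(star ψ ⬝ᵥ (bond k (nxt k) *ᵥ ψ)).re) := by
      rw [sum_rule_gen hL2 w, Matrix.sum_mulVec, dotProduct_sum, Complex.re_sum, Finset.mul_sum]
      refine Finset.sum_congr rfl fun k _ => ?_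
      rw [Matrix.smul_mulVec, dotProduct_smul, smul_eq_mul, Complex.re_ofReal_mul]
      ring
    rw [h3, ← Finset.mul_sum] at h2
    rw [Finset.mul_sum]
    calc ∑ α : Fin 3, (E1 - E0) * (star (AW w α *ᵥ ψ) ⬝ᵥ (AW w α *ᵥ ψ)).re
        ≤ ∑ α : Fin 3, ((star (AW w α *ᵥ ψ) ⬝ᵥ (ham L *ᵥ (AW w α *ᵥ ψ))).re
          - E0 * (star (AW w α *ᵥ ψ) ⬝ᵥ (AW w α *ᵥ ψ)).re) :=
          Finset.sum_le_sum fun α _ => hterm α
      _ = _ := by linarith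
  -- existence of the second eigenvalue: as in the other hand-ins, from one-site operators
  obtain ⟨ψ0, hψ00, hψ0⟩ := hE0.1
  have hN0 : 0 < (star ψ0 ⬝ᵥ ψ0).re := nrm_pos ψ0 hψ00
  have hLpos : (0 : ℝ) < L := by exact_mod_cast (by omega : 0 < L)
  have hE0L : E0 ≤ -(L : ℝ) := by
    have h := hlow (Pi.single (neel L) (1 : ℂ))
    rw [nrm_single, expect_single, ham_neel hL2 hev] at h
    simpa using h
  have hsum : ∑ p : Fin L × Fin 3,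
      ((star (site p.1 (S p.2) *ᵥ ψ0) ⬝ᵥ (ham L *ᵥ (site p.1 (S p.2) *ᵥ ψ0))).re
        - E0 * (star (site p.1 (S p.2) *ᵥ ψ0) ⬝ᵥ (site p.1 (S p.2) *ᵥ ψ0)).re)
      = -2 * E0 * (star ψ0 ⬝ᵥ ψ0).re := by
    have h1 : ∀ p : Fin L × Fin 3, (star ψ0 ⬝ᵥ (dc (ham L) (site p.1 (S p.2)) *ᵥ ψ0)).re
        = 2 * ((star (site p.1 (S p.2) *ᵥ ψ0) ⬝ᵥ (ham L *ᵥ (site p.1 (S p.2) *ᵥ ψ0))).re
        - E0 * (star (site p.1 (S p.2) *ᵥ ψ0) ⬝ᵥ (site p.1 (S p.2) *ᵥ ψ0)).re) := fun p =>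
      double_comm_expect (ham L) (site p.1 (S p.2)) hH (site_S_herm p.1 p.2) E0 ψ0 hψ0
    have h2 : (star ψ0 ⬝ᵥ ((∑ p : Fin L × Fin 3, dc (ham L) (site p.1 (S p.2))) *ᵥ ψ0)).re
        = ∑ p : Fin L × Fin 3,
          2 * ((star (site p.1 (S p.2) *ᵥ ψ0) ⬝ᵥ (ham L *ᵥ (site p.1 (S p.2) *ᵥ ψ0))).re
        - E0 * (star (site p.1 (S p.2) *ᵥ ψ0) ⬝ᵥ (site p.1 (S p.2) *ᵥ ψ0)).re) := by
      rw [Matrix.sum_mulVec, dotProduct_sum, Complex.re_sum]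
      exact Finset.sum_congr rfl fun p _ => h1 p
    rw [sum_rule hL2, Matrix.smul_mulVec, hψ0, dotProduct_smul, dotProduct_smul,
      ← Finset.mul_sum] at h2
    have h3 : ((-4 : ℂ) • (E0 : ℂ) • (star ψ0 ⬝ᵥ ψ0)).re = -4 * E0 * (star ψ0 ⬝ᵥ ψ0).re := by
      have h4 : ((-4 : ℂ) * (E0 : ℂ)) = ((-4 * E0 : ℝ) : ℂ) := by push_cast; ring
      rw [smul_eq_mul, smul_eq_mul, ← mul_assoc, h4, Complex.re_ofReal_mul]
    rw [h3] at h2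
    linarith
  have hsum_pos : 0 < ∑ p : Fin L × Fin 3,
      ((star (site p.1 (S p.2) *ᵥ ψ0) ⬝ᵥ (ham L *ᵥ (site p.1 (S p.2) *ᵥ ψ0))).re
        - E0 * (star (site p.1 (S p.2) *ᵥ ψ0) ⬝ᵥ (site p.1 (S p.2) *ᵥ ψ0)).re) := by
    rw [hsum]
    have : 0 < -E0 := by linarith
    nlinarith
  obtain ⟨p0, -, hp0⟩ := Finset.exists_lt_of_sum_lt (s := Finset.univ)
    (f := fun _ : Fin L × Fin 3 => (0 : ℝ))
    (g := fun p : Fin L × Fin 3 =>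
      (star (site p.1 (S p.2) *ᵥ ψ0) ⬝ᵥ (ham L *ᵥ (site p.1 (S p.2) *ᵥ ψ0))).re
        - E0 * (star (site p.1 (S p.2) *ᵥ ψ0) ⬝ᵥ (site p.1 (S p.2) *ᵥ ψ0)).re)
    (by rw [Finset.sum_const_zero]; exact hsum_pos)
  obtain ⟨E1, hE1⟩ := hex ⟨site p0.1 (S p0.2) *ᵥ ψ0, by linarith⟩
  have hlt : E0 < E1 := lt_of_le_of_ne (hE0.2 hE1.1.1) (Ne.symm hE1.1.2)
  refine ⟨E0, E1, hE0, hE1, hlt, fun ψ hψ => ⟨fun w => hgen E1 hE1 ψ hψ w, ?_⟩⟩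
  -- the staggered weights
  have hst := hgen E1 hE1 ψ hψ (fun j => (-1 : ℝ) ^ j.val)
  refine le_trans hst ?_
  simp only [stagger_sq hL2 hev]
  have hexp : (star ψ ⬝ᵥ (ham L *ᵥ ψ)).re = ∑ k : Fin L, (star ψ ⬝ᵥ (bond k (nxt k) *ᵥ ψ)).re := by
    rw [ham, Matrix.sum_mulVec, dotProduct_sum, Complex.re_sum]
  have hlower := ham_lower hL2 ψ
  rw [hexp] at hlower
  rw [← Finset.mul_sum, Finset.sum_neg_distrib]
  linarith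

/-- The matrices `Sx, Sy, Sz` are Hermitian, satisfy the `su(2)` relations and have Casimir `2`;
and for every even `L ≥ 4`, every ground vector `ψ` and all real weights `w` the gap times
`∑_α ‖∑_j w_j S^α_j ψ‖²` is at most `∑_k (w_k - w_{k+1})² ⟨ψ, -S_k·S_{k+1} ψ⟩`; for staggered
weights this is at most `8 L ‖ψ‖²`. -/
theorem result :
    (Sxᴴ = Sx ∧ Syᴴ = Sy ∧ Szᴴ = Sz) ∧
    (Sx * Sy - Sy * Sx = Complex.I • Sz ∧ Sy * Sz - Sz * Sy = Complex.I • Sx ∧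
      Sz * Sx - Sx * Sz = Complex.I • Sy) ∧
    Sx * Sx + Sy * Sy + Sz * Sz = (2 : ℂ) • (1 : Matrix (Fin 3) (Fin 3) ℂ) ∧
    ∀ L : ℕ, 4 ≤ L → Even L →
      ∃ E0 E1 : ℝ, IsLeast {x | IsEig (ham L) x} E0 ∧
        IsLeast {x | IsEig (ham L) x ∧ x ≠ E0} E1 ∧ E0 < E1 ∧
        ∀ ψ : Cfg L → ℂ, ham L *ᵥ ψ = (E0 : ℂ) • ψ →
          (∀ w : Fin L → ℝ,
            (E1 - E0) * ∑ α : Fin 3,
                (star ((∑ j : Fin L, (w j : ℂ) • site j (S α)) *ᵥ ψ) ⬝ᵥ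
                  ((∑ j : Fin L, (w j : ℂ) • site j (S α)) *ᵥ ψ)).re
              ≤ ∑ k : Fin L,
                  (w k - w (nxt k)) ^ 2 * (-(star ψ ⬝ᵥ (bond k (nxt k) *ᵥ ψ)).re)) ∧
          (E1 - E0) * ∑ α : Fin 3,
              (star ((∑ j : Fin L, (((-1 : ℝ) ^ j.val : ℝ) : ℂ) • site j (S α)) *ᵥ ψ) ⬝ᵥ
                ((∑ j : Fin L, (((-1 : ℝ) ^ j.val : ℝ) : ℂ) • site j (S α)) *ᵥ ψ)).re
            ≤ 8 * L * (star ψ ⬝ᵥ ψ).re :=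
  ⟨⟨Sx_herm, Sy_herm, Sz_herm⟩, ⟨comm_xy, comm_yz, comm_zx⟩, casimir, main⟩

end Vale.Agent.Results.P348.StructureFactorBound
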