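import Vale.Agent.Lib.P348.Unique
import Vale.Agent.Lib.P348.FirstMoment
import Vale.Agent.Lib.P348.Pack
import Vale.Agent.Lib.P348.Ground
import Vale.Agent.Lib.P348.Three3
import Vale.Agent.Lib.P348.Three5

/-!
# P348: the gap of the spin-one Heisenberg ring is at most `(1 + √2) / 2`

For every even `L ≥ 4` the ground state of the periodic spin-one Heisenberg Hamiltonian `H_L` is
nondegenerate and the gap to the next eigenvalue satisfies `0 < E1 - E0 ≤ (1 + √2) / 2 < 1.2072`.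

Proof.  The ground vector `ψ` is unique and a total singlet (Marshall sign rule, a
Perron-Frobenius argument and the total lowering operator, see `Lib/P348/Unique.lean`), so the
vectors `A ψ`, `A = S^α_j - t S^α_{j+1} + S^α_{j+2}`, are orthogonal to it and
`(E1 - E0) ∑ ‖A ψ‖² ≤ ∑ ⟨A ψ, (H - E0) A ψ⟩ = (4 + 4 t + 2 t²) (-E0) ‖ψ‖²` by a
double-commutator sum rule.  Positivity of `∑_α (S^α_j + u S^α_{j+1} + S^α_{j+2})²` with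
`u = e := -E0 / L` gives `∑ ‖A ψ‖² ≥ 2 (t + e)² L ‖ψ‖²`.  Hence
`E1 - E0 ≤ (2 + 2 t + t²) e / (t + e)² ≤ (2 + 2 t + t²) / (4 t)`, and `t = √2` is optimal.
-/

namespace Vale.Agent.Results.P348.GapThreeSiteBound

open Matrix Vale.Agent.Lib.P348

theorem gap_le_of (L : ℕ) (hL : 4 ≤ L) (hev : Even L) :
    ∃ E0 E1 : ℝ, IsLeast {x | IsEig (ham L) x} E0 ∧
      IsLeast {x | IsEig (ham L) x ∧ x ≠ E0} E1 ∧
      (∀ v w : Cfg L → ℂ, v ≠ 0 → ham L *ᵥ v = (E0 : ℂ) • v → ham L *ᵥ w = (E0 : ℂ) • w →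
        ∃ c : ℂ, w = c • v) ∧
      E0 < E1 ∧ ∀ t : ℝ, 0 < t → E1 - E0 ≤ (2 + 2 * t + t ^ 2) / (4 * t) := by
  have hL2 : 2 ≤ L := by omega
  have hL3 : 3 ≤ L := by omega
  have hH := ham_herm hL2
  obtain ⟨E0, hE0, hlow, hex, -⟩ := spectral_pack (ham L) hH
  obtain ⟨ψ, hψ0, hψ⟩ := hE0.1
  set N : ℝ := (star ψ ⬝ᵥ ψ).re with hN
  have hNpos : 0 < N := nrm_pos ψ hψ0
  have hLpos : (0 : ℝ) < L := by exact_mod_cast (by omega : 0 < L)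
  -- the ground energy is at most `-L`
  have hE0L : E0 ≤ -(L : ℝ) := by
    have h := hlow (Pi.single (neel L) (1 : ℂ))
    rw [nrm_single, expect_single, ham_neel hL2 hev] at h
    simpa using h
  have hexp : (star ψ ⬝ᵥ (ham L *ᵥ ψ)).re = E0 * N := by
    rw [hψ, dotProduct_smul, smul_eq_mul, Complex.re_ofReal_mul]
  -- the sum of the excitation energies of the vectors `A ψ`
  have hsum : ∀ t : ℝ, ∑ p : Fin L × Fin 3,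
      ((star (A3 t p.1 p.2 *ᵥ ψ) ⬝ᵥ (ham L *ᵥ (A3 t p.1 p.2 *ᵥ ψ))).re
        - E0 * (star (A3 t p.1 p.2 *ᵥ ψ) ⬝ᵥ (A3 t p.1 p.2 *ᵥ ψ)).re)
      = -(4 + 4 * t + 2 * t ^ 2) * E0 * N := by
    intro t
    have h1 : ∀ p : Fin L × Fin 3, (star ψ ⬝ᵥ (dc (ham L) (A3 t p.1 p.2) *ᵥ ψ)).re
        = 2 * ((star (A3 t p.1 p.2 *ᵥ ψ) ⬝ᵥ (ham L *ᵥ (A3 t p.1 p.2 *ᵥ ψ))).re
          - E0 * (star (A3 t p.1 p.2 *ᵥ ψ) ⬝ᵥ (A3 t p.1 p.2 *ᵥ ψ)).re) := fun p =>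
      double_comm_expect (ham L) (A3 t p.1 p.2) hH (A3_herm t p.1 p.2) E0 ψ hψ
    have h2 : (star ψ ⬝ᵥ ((∑ p : Fin L × Fin 3, dc (ham L) (A3 t p.1 p.2)) *ᵥ ψ)).re
        = ∑ p : Fin L × Fin 3,
          2 * ((star (A3 t p.1 p.2 *ᵥ ψ) ⬝ᵥ (ham L *ᵥ (A3 t p.1 p.2 *ᵥ ψ))).re
          - E0 * (star (A3 t p.1 p.2 *ᵥ ψ) ⬝ᵥ (A3 t p.1 p.2 *ᵥ ψ)).re) := by
      rw [Matrix.sum_mulVec, dotProduct_sum, Complex.re_sum]
      exact Finset.sum_congr rfl fun p _ => h1 p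
    rw [sum_rule3 hL t, Matrix.smul_mulVec, hψ, dotProduct_smul, dotProduct_smul,
      ← Finset.mul_sum] at h2
    have h3 : ((-(8 + 8 * t + 4 * t ^ 2 : ℝ) : ℂ) • (E0 : ℂ) • (star ψ ⬝ᵥ ψ)).re
        = -(8 + 8 * t + 4 * t ^ 2) * E0 * N := by
      have h4 : ((-(8 + 8 * t + 4 * t ^ 2 : ℝ) : ℂ) * (E0 : ℂ))
          = ((-(8 + 8 * t + 4 * t ^ 2) * E0 : ℝ) : ℂ) := by push_cast; ring
      rw [smul_eq_mul, smul_eq_mul, ← mul_assoc, h4, Complex.re_ofReal_mul]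
    rw [h3] at h2
    linarith
  -- there is a second eigenvalue
  have hsum_pos : 0 < ∑ p : Fin L × Fin 3,
      ((star (A3 0 p.1 p.2 *ᵥ ψ) ⬝ᵥ (ham L *ᵥ (A3 0 p.1 p.2 *ᵥ ψ))).re
        - E0 * (star (A3 0 p.1 p.2 *ᵥ ψ) ⬝ᵥ (A3 0 p.1 p.2 *ᵥ ψ)).re) := by
    rw [hsum 0]
    have : 0 < -E0 := by linarith
    nlinarith
  obtain ⟨p0, -, hp0⟩ := Finset.exists_lt_of_sum_lt (s := Finset.univ)
    (f := fun _ : Fin L × Fin 3 => (0 : ℝ))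
    (g := fun p : Fin L × Fin 3 =>
      (star (A3 0 p.1 p.2 *ᵥ ψ) ⬝ᵥ (ham L *ᵥ (A3 0 p.1 p.2 *ᵥ ψ))).re
        - E0 * (star (A3 0 p.1 p.2 *ᵥ ψ) ⬝ᵥ (A3 0 p.1 p.2 *ᵥ ψ)).re)
    (by rw [Finset.sum_const_zero]; exact hsum_pos)
  obtain ⟨E1, hE1⟩ := hex ⟨A3 0 p0.1 p0.2 *ᵥ ψ, by linarith⟩
  have hlt : E0 < E1 := lt_of_le_of_ne (hE0.2 hE1.1.1) (Ne.symm hE1.1.2)
  refine ⟨E0, E1, hE0, hE1, fun v w hv0 hv hw => ground_unique hL2 hev E0 hlow v w hv0 hv hw,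
    hlt, fun t ht => ?_⟩
  -- orthogonality of `A ψ` to the ground vectors
  have horth : ∀ (p : Fin L × Fin 3) (w : Cfg L → ℂ), ham L *ᵥ w = (E0 : ℂ) • w →
      star w ⬝ᵥ (A3 t p.1 p.2 *ᵥ ψ) = 0 := by
    intro p w hw
    have ho := fun j => ground_ortho hL2 hev E0 hlow ψ w hψ hw j p.2
    rw [A3, Matrix.add_mulVec, Matrix.sub_mulVec, Matrix.smul_mulVec, dotProduct_add,
      dotProduct_sub, dotProduct_smul, ho, ho, ho]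
    simp
  have hterm : ∀ p : Fin L × Fin 3,
      (E1 - E0) * (star (A3 t p.1 p.2 *ᵥ ψ) ⬝ᵥ (A3 t p.1 p.2 *ᵥ ψ)).re
      ≤ (star (A3 t p.1 p.2 *ᵥ ψ) ⬝ᵥ (ham L *ᵥ (A3 t p.1 p.2 *ᵥ ψ))).re
        - E0 * (star (A3 t p.1 p.2 *ᵥ ψ) ⬝ᵥ (A3 t p.1 p.2 *ᵥ ψ)).re := fun p =>
    gap_first_moment (ham L) hH E0 E1 hE1 (A3 t p.1 p.2 *ᵥ ψ) (horth p)
  have htot : (E1 - E0) * ∑ p : Fin L × Fin 3,
      (star (A3 t p.1 p.2 *ᵥ ψ) ⬝ᵥ (A3 t p.1 p.2 *ᵥ ψ)).re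
      ≤ -(4 + 4 * t + 2 * t ^ 2) * E0 * N := by
    rw [← hsum t, Finset.mul_sum]
    exact Finset.sum_le_sum fun p _ => hterm p
  -- lower bound for the norms with `u = e = -E0 / L`
  set e : ℝ := -E0 / L with he
  have heL : E0 = -(e * L) := by
    rw [he]; field_simp
  have hepos : 0 < e := by
    rw [he]; apply div_pos _ hLpos; linarith
  have hm0 := A3_norm_lower_sum hL3 t e ψ
  rw [hexp] at hm0
  have hg0 : 0 < E1 - E0 := by linarith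
  have hLN : 0 < (L : ℝ) * N := by positivity
  have h7 : (E1 - E0) * (2 * (t + e) ^ 2 * (L * N)) ≤ (4 + 4 * t + 2 * t ^ 2) * e * (L * N) := by
    calc (E1 - E0) * (2 * (t + e) ^ 2 * (L * N))
        = (E1 - E0) * (2 * (t ^ 2 - e ^ 2) * L * N - 4 * (t + e) * (E0 * N)) := by
          rw [heL]; ring
      _ ≤ (E1 - E0) * ∑ p : Fin L × Fin 3,
            (star (A3 t p.1 p.2 *ᵥ ψ) ⬝ᵥ (A3 t p.1 p.2 *ᵥ ψ)).re :=
          mul_le_mul_of_nonneg_left hm0 hg0.le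
      _ ≤ -(4 + 4 * t + 2 * t ^ 2) * E0 * N := htot
      _ = (4 + 4 * t + 2 * t ^ 2) * e * (L * N) := by rw [heL]; ring
  have h8 : (E1 - E0) * (t + e) ^ 2 ≤ (2 + 2 * t + t ^ 2) * e := by
    have : ((E1 - E0) * (t + e) ^ 2) * (2 * (L * N)) ≤ ((2 + 2 * t + t ^ 2) * e) * (2 * (L * N)) := by
      nlinarith
    exact le_of_mul_le_mul_right this (by positivity)
  have h9 : 4 * t * e ≤ (t + e) ^ 2 := by nlinarith [sq_nonneg (t - e)]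
  rw [le_div_iff₀ (by positivity)]
  have hte : 0 < (t + e) ^ 2 := by positivity
  have h10 : ((E1 - E0) * (4 * t)) * (t + e) ^ 2 ≤ (2 + 2 * t + t ^ 2) * (t + e) ^ 2 := by
    have hc : 0 ≤ 2 + 2 * t + t ^ 2 := by positivity
    calc ((E1 - E0) * (4 * t)) * (t + e) ^ 2 = (4 * t) * ((E1 - E0) * (t + e) ^ 2) := by ring
      _ ≤ (4 * t) * ((2 + 2 * t + t ^ 2) * e) := mul_le_mul_of_nonneg_left h8 (by positivity)
      _ = (2 + 2 * t + t ^ 2) * (4 * t * e) := by ring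
      _ ≤ (2 + 2 * t + t ^ 2) * (t + e) ^ 2 := mul_le_mul_of_nonneg_left h9 hc
  exact le_of_mul_le_mul_right h10 hte

/-- The matrices `Sx, Sy, Sz` are Hermitian, satisfy the `su(2)` relations and have Casimir `2`;
and for every even `L ≥ 4` the least eigenvalue `E0` of `H_L` is simple and the gap to the next
eigenvalue `E1` satisfies `0 < E1 - E0 ≤ (1 + √2) / 2`. -/
theorem result :
    (Sxᴴ = Sx ∧ Syᴴ = Sy ∧ Szᴴ = Sz) ∧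
    (Sx * Sy - Sy * Sx = Complex.I • Sz ∧ Sy * Sz - Sz * Sy = Complex.I • Sx ∧
      Sz * Sx - Sx * Sz = Complex.I • Sy) ∧
    Sx * Sx + Sy * Sy + Sz * Sz = (2 : ℂ) • (1 : Matrix (Fin 3) (Fin 3) ℂ) ∧
    ∀ L : ℕ, 4 ≤ L → Even L →
      ∃ E0 E1 : ℝ, IsLeast {x | IsEig (ham L) x} E0 ∧
        IsLeast {x | IsEig (ham L) x ∧ x ≠ E0} E1 ∧
        (∀ v w : Cfg L → ℂ, v ≠ 0 → ham L *ᵥ v = (E0 : ℂ) • v → ham L *ᵥ w = (E0 : ℂ) • w →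
          ∃ c : ℂ, w = c • v) ∧
        E0 < E1 ∧ E1 - E0 ≤ (1 + Real.sqrt 2) / 2 := by
  refine ⟨⟨Sx_herm, Sy_herm, Sz_herm⟩, ⟨comm_xy, comm_yz, comm_zx⟩, casimir, fun L hL hev => ?_⟩
  obtain ⟨E0, E1, h0, h1, hu, hlt, hb⟩ := gap_le_of L hL hev
  refine ⟨E0, E1, h0, h1, hu, hlt, (hb (Real.sqrt 2) (by positivity)).trans (le_of_eq ?_)⟩
  have h2 : Real.sqrt 2 ^ 2 = 2 := Real.sq_sqrt (by norm_num)
  have hpos : (0 : ℝ) < Real.sqrt 2 := by positivity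
  rw [div_eq_div_iff (by positivity) (by norm_num)]
  nlinarith

end Vale.Agent.Results.P348.GapThreeSiteBound
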