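import Vale.Agent.Results.P348.GapAtMostTwo
import Vale.Agent.Results.P348.GapThreeSiteBound

/-!
# P348: combined statement on the gap of the spin-one Heisenberg ring

For every even `L ≥ 4` the ground state of the periodic spin-one Heisenberg Hamiltonian `H_L` is
nondegenerate, `-2 L ≤ E0 ≤ -L`, and the gap to the next eigenvalue satisfies both
`0 < E1 - E0 ≤ -E0 / L` and `E1 - E0 ≤ (1 + √2) / 2`.

This puts the hand-ins `GapAtMostTwo` and `GapThreeSiteBound` into one statement about the same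
pair `E0, E1` (the two numbers are determined by the `IsLeast` conditions).
-/

namespace Vale.Agent.Results.P348.A_Combined

open Matrix Vale.Agent.Lib.P348

/-- The matrices `Sx, Sy, Sz` are Hermitian, satisfy the `su(2)` relations and have Casimir `2`;
and for every even `L ≥ 4` the least eigenvalue `E0` of `H_L` is simple, lies in `[-2L, -L]`, and
the gap to the next eigenvalue `E1` satisfies `0 < E1 - E0 ≤ min (-E0 / L) ((1 + √2) / 2)`. -/
theorem result :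
    (Sxᴴ = Sx ∧ Syᴴ = Sy ∧ Szᴴ = Sz) ∧
    (Sx * Sy - Sy * Sx = Complex.I • Sz ∧ Sy * Sz - Sz * Sy = Complex.I • Sx ∧
      Sz * Sx - Sx * Sz = Complex.I • Sy) ∧
    Sx * Sx + Sy * Sy + Sz * Sz = (2 : ℂ) • (1 : Matrix (Fin 3) (Fin 3) ℂ) ∧
    ∀ L : ℕ, 4 ≤ L → Even L →
      ∃ E0 E1 : ℝ, IsLeast {x | IsEig (ham L) x} E0 ∧
        IsLeast {x | IsEig (ham L) x ∧ x ≠ E0} E1 ∧
        (∀ v w : Cfg L → ℂ, v ≠ 0 → ham L *ᵥ v = (E0 : ℂ) • v → ham L *ᵥ w = (E0 : ℂ) • w →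
          ∃ c : ℂ, w = c • v) ∧
        -2 * (L : ℝ) ≤ E0 ∧ E0 ≤ -(L : ℝ) ∧ E0 < E1 ∧ E1 - E0 ≤ -E0 / L ∧
        E1 - E0 ≤ (1 + Real.sqrt 2) / 2 := by
  obtain ⟨hh, hc, hcas, h2⟩ := GapAtMostTwo.result
  refine ⟨hh, hc, hcas, fun L hL hev => ?_⟩
  obtain ⟨E0, E1, h0, h1, hu, hlow, hup, hlt, hm, -⟩ := h2 L hL hev
  obtain ⟨E0', E1', h0', h1', -, -, hb⟩ := GapThreeSiteBound.result.2.2.2 L hL hev
  obtain rfl : E0' = E0 := h0'.unique h0
  obtain rfl : E1' = E1 := h1'.unique h1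
  exact ⟨E0', E1', h0, h1, hu, hlow, hup, hlt, hm, hb⟩

end Vale.Agent.Results.P348.A_Combined
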