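import Vale.Agent.Lib.P348.Unique
import Vale.Agent.Lib.P348.FirstMoment
import Vale.Agent.Lib.P348.Casimir
import Vale.Agent.Lib.P348.Pack
import Vale.Agent.Lib.P348.Ground

/-!
# P348: the gap of the spin-one Heisenberg ring is at most `|E0| / L ≤ 2`

For every even `L ≥ 4` the ground state of the periodic spin-one Heisenberg Hamiltonian `H_L` is
nondegenerate, `-2 L ≤ E0 ≤ -L`, and the gap to the next eigenvalue satisfies
`0 < E1 - E0 ≤ -E0 / L ≤ 2`.

Proof.  (1) Marshall sign rule and a Perron-Frobenius argument: in the `S^z` basis the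
off-diagonal entries of `H_L` become nonpositive after the Marshall sign change, configurations
of equal total `S^z` are connected by exchange moves, so a ground vector in a sector of fixed
total `S^z` is unique and nowhere zero there.  (2) Applying the total lowering operator to a
ground vector of positive total `S^z` gives a ground vector whose Marshall-signed entries take
both signs: contradiction; the spin flip treats negative total `S^z`.  So the ground vector is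
unique and is a total singlet.  (3) Hence `S^α_j ψ` is orthogonal to the ground vector, and
`(E1 - E0) ∑ ‖S^α_j ψ‖² ≤ ∑ ⟨S^α_j ψ, (H - E0) S^α_j ψ⟩`, i.e. `(E1 - E0) 2 L ≤ -2 E0` by the
Casimir identity and the double-commutator sum rule.
-/

namespace Vale.Agent.Results.P348.GapAtMostTwo

open Matrix Vale.Agent.Lib.P348

theorem gap_le (L : ℕ) (hL : 4 ≤ L) (hev : Even L) :
    ∃ E0 E1 : ℝ, IsLeast {x | IsEig (ham L) x} E0 ∧
      IsLeast {x | IsEig (ham L) x ∧ x ≠ E0} E1 ∧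
      (∀ v w : Cfg L → ℂ, v ≠ 0 → ham L *ᵥ v = (E0 : ℂ) • v → ham L *ᵥ w = (E0 : ℂ) • w →
        ∃ c : ℂ, w = c • v) ∧
      -2 * (L : ℝ) ≤ E0 ∧ E0 ≤ -(L : ℝ) ∧ E0 < E1 ∧ E1 - E0 ≤ -E0 / L ∧ E1 - E0 ≤ 2 := by
  have hL2 : 2 ≤ L := by omega
  have hH := ham_herm hL2
  obtain ⟨E0, hE0, hlow, hex, -⟩ := spectral_pack (ham L) hH
  obtain ⟨ψ, hψ0, hψ⟩ := hE0.1
  set N : ℝ := (star ψ ⬝ᵥ ψ).re with hN
  have hNpos : 0 < N := nrm_pos ψ hψ0
  have hLpos : (0 : ℝ) < L := by exact_mod_cast (by omega : 0 < L)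
  -- the ground energy is at most `-L`
  have hE0L : E0 ≤ -(L : ℝ) := by
    have h := hlow (Pi.single (neel L) (1 : ℂ))
    rw [nrm_single, expect_single, ham_neel hL2 hev] at h
    simpa using h
  -- the ground energy is at least `-2 L`
  have hexp : (star ψ ⬝ᵥ (ham L *ᵥ ψ)).re = E0 * N := by
    rw [hψ, dotProduct_smul, smul_eq_mul, Complex.re_ofReal_mul]
  have hE0low : -2 * (L : ℝ) ≤ E0 := by
    have h := ham_lower hL2 ψ
    rw [hexp] at h
    exact le_of_mul_le_mul_right h hNpos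
  -- the excitation energies of the vectors `A ψ`
  let A : Fin L × Fin 3 → Matrix (Cfg L) (Cfg L) ℂ := fun p => site p.1 (S p.2)
  let e : Fin L × Fin 3 → ℝ := fun p =>
    (star (A p *ᵥ ψ) ⬝ᵥ (ham L *ᵥ (A p *ᵥ ψ))).re - E0 * (star (A p *ᵥ ψ) ⬝ᵥ (A p *ᵥ ψ)).re
  have hsum : ∑ p, e p = -2 * E0 * N := by
    have h1 : ∀ p, (star ψ ⬝ᵥ (dc (ham L) (A p) *ᵥ ψ)).re = 2 * e p := fun p =>
      double_comm_expect (ham L) (A p) hH (site_S_herm p.1 p.2) E0 ψ hψ
    have h2 : (star ψ ⬝ᵥ ((∑ p, dc (ham L) (A p)) *ᵥ ψ)).re = ∑ p, 2 * e p := by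
      rw [Matrix.sum_mulVec, dotProduct_sum, Complex.re_sum]
      exact Finset.sum_congr rfl fun p _ => h1 p
    rw [sum_rule hL2, Matrix.smul_mulVec, hψ, dotProduct_smul, dotProduct_smul,
      ← Finset.mul_sum] at h2
    have h3 : ((-4 : ℂ) • (E0 : ℂ) • (star ψ ⬝ᵥ ψ)).re = -4 * E0 * N := by
      have h4 : ((-4 : ℂ) * (E0 : ℂ)) = ((-4 * E0 : ℝ) : ℂ) := by push_cast; ring
      rw [smul_eq_mul, smul_eq_mul, ← mul_assoc, h4, Complex.re_ofReal_mul]
    rw [h3] at h2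
    linarith
  have hsum_pos : 0 < ∑ p, e p := by
    rw [hsum]
    have : 0 < -E0 := by linarith
    nlinarith
  -- some `A ψ` has positive excitation energy, so there is a second eigenvalue
  obtain ⟨p0, -, hp0⟩ := Finset.exists_lt_of_sum_lt (s := Finset.univ)
    (f := fun _ : Fin L × Fin 3 => (0 : ℝ)) (g := e) (by simpa using hsum_pos)
  obtain ⟨E1, hE1⟩ := hex ⟨A p0 *ᵥ ψ, by have := hp0; simp only [e] at this; linarith⟩
  have hlt : E0 < E1 := lt_of_le_of_ne (hE0.2 hE1.1.1) (Ne.symm hE1.1.2)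
  -- first-moment bound for each `A ψ`, which is orthogonal to the ground vectors
  have hterm : ∀ p, (E1 - E0) * (star (A p *ᵥ ψ) ⬝ᵥ (A p *ᵥ ψ)).re ≤ e p := fun p =>
    gap_first_moment (ham L) hH E0 E1 hE1 (A p *ᵥ ψ)
      (fun w hw => ground_ortho hL2 hev E0 hlow ψ w hψ hw p.1 p.2)
  have hnorm : ∑ p, (star (A p *ᵥ ψ) ⬝ᵥ (A p *ᵥ ψ)).re = 2 * L * N := by
    rw [Fintype.sum_prod_type]
    simp only [A, sum_sq_site]
    rw [Finset.sum_const, Finset.card_univ, Fintype.card_fin, nsmul_eq_mul]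
    ring
  have htot : (E1 - E0) * (2 * L * N) ≤ -2 * E0 * N := by
    rw [← hnorm, ← hsum, Finset.mul_sum]
    exact Finset.sum_le_sum fun p _ => hterm p
  have hmain : E1 - E0 ≤ -E0 / L := by
    rw [le_div_iff₀ hLpos]
    have h : ((E1 - E0) * L) * (2 * N) ≤ (-E0) * (2 * N) := by nlinarith
    exact le_of_mul_le_mul_right h (by positivity)
  refine ⟨E0, E1, hE0, hE1, fun v w hv0 hv hw => ground_unique hL2 hev E0 hlow v w hv0 hv hw,
    hE0low, hE0L, hlt, hmain, hmain.trans ?_⟩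
  rw [div_le_iff₀ hLpos]
  linarith

/-- The matrices `Sx, Sy, Sz` are Hermitian, satisfy the `su(2)` relations and have Casimir `2`;
and for every even `L ≥ 4` the least eigenvalue `E0` of `H_L` is simple, lies in `[-2L, -L]`, and
the gap to the next eigenvalue `E1` satisfies `0 < E1 - E0 ≤ -E0 / L ≤ 2`. -/
theorem result :
    (Sxᴴ = Sx ∧ Syᴴ = Sy ∧ Szᴴ = Sz) ∧
    (Sx * Sy - Sy * Sx = Complex.I • Sz ∧ Sy * Sz - Sz * Sy = Complex.I • Sx ∧
      Sz * Sx - Sx * Sz = Complex.I • Sy) ∧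
    Sx * Sx + Sy * Sy + Sz * Sz = (2 : ℂ) • (1 : Matrix (Fin 3) (Fin 3) ℂ) ∧
    ∀ L : ℕ, 4 ≤ L → Even L →
      ∃ E0 E1 : ℝ, IsLeast {x | IsEig (ham L) x} E0 ∧
        IsLeast {x | IsEig (ham L) x ∧ x ≠ E0} E1 ∧
        (∀ v w : Cfg L → ℂ, v ≠ 0 → ham L *ᵥ v = (E0 : ℂ) • v → ham L *ᵥ w = (E0 : ℂ) • w →
          ∃ c : ℂ, w = c • v) ∧
        -2 * (L : ℝ) ≤ E0 ∧ E0 ≤ -(L : ℝ) ∧ E0 < E1 ∧ E1 - E0 ≤ -E0 / L ∧ E1 - E0 ≤ 2 :=
  ⟨⟨Sx_herm, Sy_herm, Sz_herm⟩, ⟨comm_xy, comm_yz, comm_zx⟩, casimir, gap_le⟩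

end Vale.Agent.Results.P348.GapAtMostTwo
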