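import Vale.Agent.Lib.P348.Bounds
import Vale.Agent.Lib.P348.Pack
import Vale.Agent.Lib.P348.Ground

/-!
# P348: a length-independent upper bound for the gap of the spin-one Heisenberg ring

For every even `L ≥ 4` the periodic spin-one Heisenberg Hamiltonian `H_L` has a least
eigenvalue `E0`, a next distinct eigenvalue `E1`, and `0 < E1 - E0 ≤ 24`.

Proof: for a ground vector `ψ` and `A` running over the `3 L` one-site spin operators,
`∑ ⟨Aψ, (H - E0) Aψ⟩ = (1/2) ⟨ψ, ∑ [A,[H,A]] ψ⟩ = -2 E0 ‖ψ‖² ≥ 2 L ‖ψ‖²` (sum rule and the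
Neel configuration), `∑ ‖(H - E0) Aψ‖² = ∑ ‖[H,A]ψ‖² ≤ 48 L ‖ψ‖²`, and the spectral theorem
gives `(E1 - E0) ⟨φ, (H - E0) φ⟩ ≤ ‖(H - E0) φ‖²` for every `φ`.  No assumption on the
multiplicity of `E0` is used.
-/

namespace Vale.Agent.Results.P348.UniformGapUpperBound

open Matrix Vale.Agent.Lib.P348

open scoped Matrix.Norms.L2Operator in
theorem gap_le (L : ℕ) (hL : 4 ≤ L) (hev : Even L) :
    ∃ E0 E1 : ℝ, IsLeast {x | IsEig (ham L) x} E0 ∧
      IsLeast {x | IsEig (ham L) x ∧ x ≠ E0} E1 ∧ E0 < E1 ∧ E1 - E0 ≤ 24 := by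
  have hL2 : 2 ≤ L := by omega
  have hH := ham_herm hL2
  obtain ⟨E0, hE0, hlow, hex, hgap⟩ := spectral_pack (ham L) hH
  obtain ⟨ψ, hψ0, hψ⟩ := hE0.1
  set N : ℝ := (star ψ ⬝ᵥ ψ).re with hN
  have hNpos : 0 < N := nrm_pos ψ hψ0
  have hLpos : (0 : ℝ) < L := by exact_mod_cast (by omega : 0 < L)
  -- the ground energy is at most `-L`
  have hE0L : E0 ≤ -(L : ℝ) := by
    have h := hlow (Pi.single (neel L) (1 : ℂ))
    rw [nrm_single, expect_single, ham_neel hL2 hev] at h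
    simpa using h
  -- the excitation energies of the vectors `A ψ`
  let A : Fin L × Fin 3 → Matrix (Cfg L) (Cfg L) ℂ := fun p => site p.1 (S p.2)
  let e : Fin L × Fin 3 → ℝ := fun p =>
    (star (A p *ᵥ ψ) ⬝ᵥ (ham L *ᵥ (A p *ᵥ ψ))).re - E0 * (star (A p *ᵥ ψ) ⬝ᵥ (A p *ᵥ ψ)).re
  have hsum : ∑ p, e p = -2 * E0 * N := by
    have h1 : ∀ p, (star ψ ⬝ᵥ (dc (ham L) (A p) *ᵥ ψ)).re = 2 * e p := fun p =>
      double_comm_expect (ham L) (A p) hH (site_S_herm p.1 p.2) E0 ψ hψ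
    have h2 : (star ψ ⬝ᵥ ((∑ p, dc (ham L) (A p)) *ᵥ ψ)).re = ∑ p, 2 * e p := by
      rw [Matrix.sum_mulVec, dotProduct_sum, Complex.re_sum]
      exact Finset.sum_congr rfl fun p _ => h1 p
    rw [sum_rule hL2, Matrix.smul_mulVec, hψ, dotProduct_smul, dotProduct_smul,
      ← Finset.mul_sum] at h2
    have h3 : ((-4 : ℂ) • (E0 : ℂ) • (star ψ ⬝ᵥ ψ)).re = -4 * E0 * N := by
      have h4 : ((-4 : ℂ) * (E0 : ℂ)) = ((-4 * E0 : ℝ) : ℂ) := by push_cast; ring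
      rw [smul_eq_mul, smul_eq_mul, ← mul_assoc, h4, Complex.re_ofReal_mul]
    rw [h3] at h2
    linarith
  have hsum_pos : 0 < ∑ p, e p := by
    rw [hsum]
    have : 0 < -E0 := by linarith
    nlinarith
  -- some `A ψ` has positive excitation energy, so there is a second eigenvalue
  obtain ⟨p0, -, hp0⟩ := Finset.exists_lt_of_sum_lt (s := Finset.univ)
    (f := fun _ : Fin L × Fin 3 => (0 : ℝ)) (g := e) (by simpa using hsum_pos)
  obtain ⟨E1, hE1⟩ := hex ⟨A p0 *ᵥ ψ, by have := hp0; simp only [e] at this; linarith⟩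
  have hlt : E0 < E1 := lt_of_le_of_ne (hE0.2 hE1.1.1) (Ne.symm hE1.1.2)
  refine ⟨E0, E1, hE0, hE1, hlt, ?_⟩
  have hg : ∀ x, IsEig (ham L) x → x = E0 ∨ E0 + (E1 - E0) ≤ x := by
    intro x hx
    by_cases h : x = E0
    · exact Or.inl h
    · right
      have := hE1.2 ⟨hx, h⟩
      linarith
  have hterm : ∀ p, (E1 - E0) * e p ≤ 16 * N := by
    intro p
    have h1 := hgap (E1 - E0) hg (A p *ᵥ ψ)
    rw [comm_apply (ham L) (A p) E0 ψ hψ] at h1
    have h2 := norm_mulVec_sq_le (ham L * A p - A p * ham L) ψ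
    have h3 : ‖ham L * A p - A p * ham L‖ ^ 2 ≤ 16 := by
      have := norm_ham_comm hL2 p.1 p.2
      have h0 := norm_nonneg (ham L * A p - A p * ham L)
      simp only [A] at h0 ⊢
      nlinarith
    calc (E1 - E0) * e p ≤ _ := h1
      _ ≤ _ := h2
      _ ≤ 16 * N := mul_le_mul_of_nonneg_right h3 hNpos.le
  have htot : (E1 - E0) * ∑ p, e p ≤ (3 * L : ℝ) * (16 * N) := by
    rw [Finset.mul_sum]
    calc ∑ p, (E1 - E0) * e p ≤ ∑ _p : Fin L × Fin 3, 16 * N :=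
          Finset.sum_le_sum fun p _ => hterm p
      _ = (3 * L : ℝ) * (16 * N) := by
          rw [Finset.sum_const, Finset.card_univ, Fintype.card_prod, Fintype.card_fin,
            Fintype.card_fin, nsmul_eq_mul]
          push_cast
          ring
  rw [hsum] at htot
  -- `(E1 - E0) * 2 L N ≤ (E1 - E0) * (-2 E0 N) ≤ 48 L N`
  have hg0 : 0 < E1 - E0 := by linarith
  have h5 : (E1 - E0) * (2 * L * N) ≤ (E1 - E0) * (-2 * E0 * N) := by
    apply mul_le_mul_of_nonneg_left _ hg0.le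
    nlinarith
  have h6 : (E1 - E0) * (2 * L * N) ≤ 24 * (2 * L * N) := by nlinarith
  exact le_of_mul_le_mul_right h6 (by positivity)

/-- The matrices `Sx, Sy, Sz` are Hermitian, satisfy the `su(2)` relations and have Casimir `2`;
and for every even `L ≥ 4` the gap between the least eigenvalue of `H_L` and the next distinct
eigenvalue is positive and at most `24`. -/
theorem result :
    (Sxᴴ = Sx ∧ Syᴴ = Sy ∧ Szᴴ = Sz) ∧
    (Sx * Sy - Sy * Sx = Complex.I • Sz ∧ Sy * Sz - Sz * Sy = Complex.I • Sx ∧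
      Sz * Sx - Sx * Sz = Complex.I • Sy) ∧
    Sx * Sx + Sy * Sy + Sz * Sz = (2 : ℂ) • (1 : Matrix (Fin 3) (Fin 3) ℂ) ∧
    ∀ L : ℕ, 4 ≤ L → Even L →
      ∃ E0 E1 : ℝ, IsLeast {x | IsEig (ham L) x} E0 ∧
        IsLeast {x | IsEig (ham L) x ∧ x ≠ E0} E1 ∧ E0 < E1 ∧ E1 - E0 ≤ 24 :=
  ⟨⟨Sx_herm, Sy_herm, Sz_herm⟩, ⟨comm_xy, comm_yz, comm_zx⟩, casimir, gap_le⟩

end Vale.Agent.Results.P348.UniformGapUpperBound
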